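import Vale.Agent.Lib.P314.Capelli

/-!
# P314: hitting sets for noncommutative formulas need matrices of growing dimension

For every field `F`, every `n ≥ 2` and every `d`:

* there is a noncommutative formula in `n` variables, of size at most `(d+4)!`, computing a
  nonzero polynomial that vanishes on every tuple of `k × k` matrices over `F` with `k ≤ d`;
* consequently, for `s ≥ (d+4)!`, every hitting set for the formulas of size at most `s`
  contains a tuple of matrices of dimension greater than `d`.
-/

namespace Vale.Agent.Results.P314.DimLowerBound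

open Vale.Agent.Lib.P314

theorem result {F : Type} [Field F] (n d : ℕ) (hn : 2 ≤ n) :
    (∃ φ : NCFormula F n, φ.size ≤ (d + 4).factorial ∧ φ.eval ≠ 0 ∧
      ∀ T : MatPoint F n, T.1 ≤ d → matEval φ.eval T = 0) ∧
    (∀ (s : ℕ) (H : Set (MatPoint F n)), (d + 4).factorial ≤ s → IsHittingSet n s H →
      ∃ T ∈ H, d < T.1) := by
  have key := exists_small_identity (F := F) n d hn
  refine ⟨key, ?_⟩
  intro s H hs hH
  obtain ⟨φ, hsize, hne, hvan⟩ := key
  obtain ⟨T, hT, hTne⟩ := hH.2 φ (hsize.trans hs) hne
  refine ⟨T, hT, ?_⟩
  by_contra hle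
  exact hTne (hvan T (by omega))

end Vale.Agent.Results.P314.DimLowerBound
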