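import Vale.Agent.Lib.P314.Prune

/-!
# P314: low-dimensional and small triangularizable tuples are useless in a hitting set

If `H` is a hitting set for the noncommutative formulas of size at most
`s + (d+4)! + 10 m + 3` in `n ≥ 2` variables, then the tuples of `H` of dimension greater
than `d` that are of dimension greater than `m` or not simultaneously triangularizable
already form a hitting set for the formulas of size at most `s`.
-/

namespace Vale.Agent.Results.P314.PruneSmallTuples

open Vale.Agent.Lib.P314

theorem result {F : Type} [Field F] (n s d m : ℕ) (hn : 2 ≤ n) (H : Set (MatPoint F n))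
    (hH : IsHittingSet n (s + (d + 4).factorial + 10 * m + 3) H) :
    IsHittingSet n s {T ∈ H | d < T.1 ∧ (m < T.1 ∨ ¬ IsTriangularizable T)} :=
  prune_hitting_set n s d m hn H hH

end Vale.Agent.Results.P314.PruneSmallTuples
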